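import Vale.Agent.P058.RV.Glue

/-! # Configurations of the staircase design (n = 2), change of view, mixing -/

namespace Vale.Agent.P058.RV

open Vale.Agent.P058 Vale.Agent.P058.Quad Vale.Agent.P058.RQ Vale.Agent.P058.RS
  Vale.Agent.P058.RT Vale.Agent.P058.RU
open scoped RealInnerProductSpace

variable (N M : ℕ) [NeZero N] [NeZero M]

/-- four vectors `a b c d`, reachable from `a` in the staircase group (`n = 2`), with
`(1-p) a + p c = (1-q) b + q d`, `|c-a|² = U`, `⟪c-a, d-b⟫ = S` -/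
def Cfg (p q U S : ℝ) : Prop :=
  ∃ a b c d : OmS N M 2 → ℝ,
    ReachP (Gam Bool (ZMod (2 * M)) (ZMod N) (ZMod 2)) a b ∧
    ReachP (Gam Bool (ZMod (2 * M)) (ZMod N) (ZMod 2)) a c ∧
    ReachP (Gam Bool (ZMod (2 * M)) (ZMod N) (ZMod 2)) a d ∧
    (∀ ω, (1 - p) * a ω + p * c ω = (1 - q) * b ω + q * d ω) ∧
    ∑ ω, (c ω - a ω) ^ 2 = U ∧ ∑ ω, (c ω - a ω) * (d ω - b ω) = S

/-- [C1] the staircase `S_2` has perpendicular `c - a`, `d - b`.  As in `RU.sol_coreS'` with `n = 2`, `l1 = 1`,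
`l0 = 0`: vectors `vecS N M 2 (AS N M 2 q (1-q)) (A1 N M q (1-q)) 1 0` etc., `reach_bS`, `reach_cS`, `reach_dS`,
`rel_vecS`, `sum_sq_vecS`, `sum_pr_vecS`. -/
theorem cfg_core (p q : ℝ) (hG0 : (N : ℝ) * q + M * (1 - q) ≠ 0)
    (hGp : ((N : ℝ) * q + M * (1 - q)) * p = N * q) :
    Cfg N M p q (4 * ((N : ℝ) * q + M * (1 - q)) ^ 2) 0 := by
  have hsq := sum_sq_vecS N M 2 q (1 - q) 1 0
  have hpr := sum_pr_vecS N M 2 q (1 - q) 1 0
  refine ⟨vecS N M 2 (AS N M 2 q (1 - q)) (A1 N M q (1 - q)) 1 0,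
    vecS N M 2 (BS N M 2 q (1 - q)) (B1 N M q (1 - q)) 1 0,
    vecS N M 2 (CS N M 2 q (1 - q)) (C1 N M q (1 - q)) 1 0,
    vecS N M 2 (DS N M 2 q (1 - q)) (D1 N M q (1 - q)) 1 0,
    reach_bS N M 2 _ _ _ _, reach_cS N M 2 _ _ _ _, reach_dS N M 2 _ _ _ _, ?_, ?_, ?_⟩
  · intro ω
    have h := rel_vecS N M 2 q (1 - q) 1 0 ω
    apply mul_left_cancel₀ hG0
    linear_combination h + (vecS N M 2 (CS N M 2 q (1 - q)) (C1 N M q (1 - q)) 1 0 ω -
      vecS N M 2 (AS N M 2 q (1 - q)) (A1 N M q (1 - q)) 1 0 ω) * hGp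
  · rw [hsq]
    push_cast
    ring
  · rw [hpr]
    push_cast
    ring

/-- [C2] exchange `b` and `d`. -/
theorem cfg_swap {p q U S : ℝ} (h : Cfg N M p q U S) : Cfg N M p (1 - q) U (-S) := by
  obtain ⟨a, b, c, d, hb, hc, hd, hr, hU, hS⟩ := h
  refine ⟨a, d, c, b, hd, hc, hb, ?_, hU, ?_⟩
  · intro ω
    linear_combination hr ω
  · rw [← hS, ← Finset.sum_neg_distrib]
    apply Finset.sum_congr rfl
    intro ω _
    ring

/-- [C3] multiply the four vectors by `√t` (`ReachP.smul`, `Real.sq_sqrt`, `Finset.mul_sum`). -/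
theorem cfg_smul {p q U S : ℝ} (h : Cfg N M p q U S) (t : ℝ) (ht : 0 ≤ t) :
    Cfg N M p q (t * U) (t * S) := by
  obtain ⟨a, b, c, d, hb, hc, hd, hrel, hU, hS⟩ := h
  have hs : Real.sqrt t ^ 2 = t := Real.sq_sqrt ht
  refine ⟨fun ω => Real.sqrt t * a ω, fun ω => Real.sqrt t * b ω, fun ω => Real.sqrt t * c ω,
    fun ω => Real.sqrt t * d ω, ReachP.smul _ hb, ReachP.smul _ hc, ReachP.smul _ hd, ?_, ?_, ?_⟩
  · intro ω
    have := hrel ω
    linear_combination Real.sqrt t * this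
  · rw [← hU, Finset.mul_sum]
    refine Finset.sum_congr rfl fun ω _ => ?_
    have : (Real.sqrt t * c ω - Real.sqrt t * a ω) ^ 2 = Real.sqrt t ^ 2 * (c ω - a ω) ^ 2 := by ring
    rw [this, hs]
  · rw [← hS, Finset.mul_sum]
    refine Finset.sum_congr rfl fun ω _ => ?_
    have : (Real.sqrt t * c ω - Real.sqrt t * a ω) * (Real.sqrt t * d ω - Real.sqrt t * b ω)
        = Real.sqrt t ^ 2 * ((c ω - a ω) * (d ω - b ω)) := by ring
    rw [this, hs]

omit [NeZero N] [NeZero M] in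
/-- [C4b] power of the point for sums.  Pointwise `((1-p) a + p c)² = (1-p) a² + p c² - p (1-p) (c-a)²`, the same
for `b d q`; sum and use the three hypotheses. -/
lemma sum_power {Ω : Type} [Fintype Ω] (a b c d : Ω → ℝ) (p q : ℝ)
    (hb : ∑ ω, b ω ^ 2 = ∑ ω, a ω ^ 2) (hc : ∑ ω, c ω ^ 2 = ∑ ω, a ω ^ 2)
    (hd : ∑ ω, d ω ^ 2 = ∑ ω, a ω ^ 2)
    (hrel : ∀ ω, (1 - p) * a ω + p * c ω = (1 - q) * b ω + q * d ω) :
    p * (1 - p) * ∑ ω, (c ω - a ω) ^ 2 = q * (1 - q) * ∑ ω, (d ω - b ω) ^ 2 := by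
  have h1 : ∑ ω, ((1 - p) * a ω + p * c ω) ^ 2 = (1 - p) * ∑ ω, a ω ^ 2 + p * ∑ ω, c ω ^ 2
      - p * (1 - p) * ∑ ω, (c ω - a ω) ^ 2 := by
    rw [Finset.mul_sum, Finset.mul_sum, Finset.mul_sum, ← Finset.sum_add_distrib,
      ← Finset.sum_sub_distrib]
    refine Finset.sum_congr rfl fun ω _ => ?_
    ring
  have h2 : ∑ ω, ((1 - q) * b ω + q * d ω) ^ 2 = (1 - q) * ∑ ω, b ω ^ 2 + q * ∑ ω, d ω ^ 2
      - q * (1 - q) * ∑ ω, (d ω - b ω) ^ 2 := by
    rw [Finset.mul_sum, Finset.mul_sum, Finset.mul_sum, ← Finset.sum_add_distrib,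
      ← Finset.sum_sub_distrib]
    refine Finset.sum_congr rfl fun ω _ => ?_
    ring
  have h3 : ∑ ω, ((1 - p) * a ω + p * c ω) ^ 2 = ∑ ω, ((1 - q) * b ω + q * d ω) ^ 2 :=
    Finset.sum_congr rfl fun ω _ => by rw [hrel ω]
  rw [hc] at h1
  rw [hb, hd] at h2
  linear_combination h1 - h2 - h3

omit [NeZero N] [NeZero M] in
/-- [C4a] pointwise `d - a = p u + (1-q) w`, `c - b = (1-p) u + q w` (`u = c - a`, `w = d - b`;
`linear_combination ∓ hrel ω`), so `(d-a)(c-b) = p(1-p) u² + (pq + (1-p)(1-q)) u w + q(1-q) w²`; sum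
(`Finset.sum_add_distrib`, `Finset.mul_sum`) and use `sum_power`. -/
lemma sum_view {Ω : Type} [Fintype Ω] (a b c d : Ω → ℝ) (p q : ℝ)
    (hb : ∑ ω, b ω ^ 2 = ∑ ω, a ω ^ 2) (hc : ∑ ω, c ω ^ 2 = ∑ ω, a ω ^ 2)
    (hd : ∑ ω, d ω ^ 2 = ∑ ω, a ω ^ 2)
    (hrel : ∀ ω, (1 - p) * a ω + p * c ω = (1 - q) * b ω + q * d ω) :
    ∑ ω, (d ω - a ω) * (c ω - b ω) = 2 * p * (1 - p) * ∑ ω, (c ω - a ω) ^ 2 +
      (p * q + (1 - p) * (1 - q)) * ∑ ω, (c ω - a ω) * (d ω - b ω) := by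
  have hp := sum_power a b c d p q hb hc hd hrel
  have h1 : ∀ ω, (d ω - a ω) * (c ω - b ω) = p * (1 - p) * (c ω - a ω) ^ 2
      + (p * q + (1 - p) * (1 - q)) * ((c ω - a ω) * (d ω - b ω))
      + q * (1 - q) * (d ω - b ω) ^ 2 := by
    intro ω
    have e1 : d ω - a ω = p * (c ω - a ω) + (1 - q) * (d ω - b ω) := by
      linear_combination - hrel ω
    have e2 : c ω - b ω = (1 - p) * (c ω - a ω) + q * (d ω - b ω) := by
      linear_combination hrel ω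
    rw [e1, e2]; ring
  simp_rw [h1]
  rw [Finset.sum_add_distrib, Finset.sum_add_distrib, ← Finset.mul_sum, ← Finset.mul_sum,
    ← Finset.mul_sum, ← hp]
  ring

omit [NeZero N] [NeZero M] in
/-- [C4c] pointwise `d - a = p u + (1-q) w`; `∑ (p u + (1-q) w)² = p² ∑ u² + 2 p (1-q) ∑ u w + (1-q)² ∑ w²`. -/
lemma sum_lower {Ω : Type} [Fintype Ω] (a b c d : Ω → ℝ) (p q : ℝ)
    (hrel : ∀ ω, (1 - p) * a ω + p * c ω = (1 - q) * b ω + q * d ω)
    (h0 : ∑ ω, (c ω - a ω) * (d ω - b ω) = 0) :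
    p ^ 2 * ∑ ω, (c ω - a ω) ^ 2 ≤ ∑ ω, (d ω - a ω) ^ 2 := by
  have h1 : ∑ ω, (d ω - a ω) ^ 2 = p ^ 2 * ∑ ω, (c ω - a ω) ^ 2
      + 2 * p * (1 - q) * ∑ ω, (c ω - a ω) * (d ω - b ω)
      + (1 - q) ^ 2 * ∑ ω, (d ω - b ω) ^ 2 := by
    rw [Finset.mul_sum, Finset.mul_sum, Finset.mul_sum, ← Finset.sum_add_distrib,
      ← Finset.sum_add_distrib]
    refine Finset.sum_congr rfl fun ω _ => ?_
    have h : d ω - a ω = p * (c ω - a ω) + (1 - q) * (d ω - b ω) := by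
      linear_combination -(hrel ω)
    rw [h]
    ring
  have h2 : 0 ≤ (1 - q) ^ 2 * ∑ ω, (d ω - b ω) ^ 2 :=
    mul_nonneg (sq_nonneg _) (Finset.sum_nonneg fun ω _ => sq_nonneg _)
  rw [h1, h0]
  linarith

/-- [C4] change of view: a configuration `(a, b, c', d')` for `(p', q')` gives the configuration `(a, b, d', c')` for
`(p, q)`: multiply the relation by `e`.  `U2 = ∑ (d'-a)²`, `S2 = ∑ (d'-a)(c'-b)`; the identity is `sum_view` for
`(a, b, d', c')`, `(p, q)` (norms: `ReachP.sum_sq`), whose left side is `∑ (c'-a)(d'-b) = 0`; the inequality is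
`sum_lower` for `(a, b, c', d')`, `(p', q')`. -/
theorem cfg_view (p q p' q' e Us : ℝ) (he : e = 1 - p - q) (hp' : e * p' = -q) (hq' : e * q' = -p)
    (h : Cfg N M p' q' Us 0) :
    ∃ U2 S2, Cfg N M p q U2 S2 ∧
      2 * p * (1 - p) * U2 + (p * q + (1 - p) * (1 - q)) * S2 = 0 ∧ p' ^ 2 * Us ≤ U2 := by
  obtain ⟨a, b, c, d, hab, hac, had, hrel, hU, hS⟩ := h
  have hrel2 : ∀ ω, (1 - p) * a ω + p * d ω = (1 - q) * b ω + q * c ω := by
    intro ω
    have h1 := hrel ω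
    have h2 : e * ((1 - p') * a ω + p' * c ω) = e * ((1 - q') * b ω + q' * d ω) := by rw [h1]
    have h3 : e * ((1 - p') * a ω + p' * c ω) = (e - e * p') * a ω + (e * p') * c ω := by ring
    have h4 : e * ((1 - q') * b ω + q' * d ω) = (e - e * q') * b ω + (e * q') * d ω := by ring
    rw [h3, h4, hp', hq', he] at h2
    linarith
  refine ⟨∑ ω, (d ω - a ω) ^ 2, ∑ ω, (d ω - a ω) * (c ω - b ω),
    ⟨a, b, d, c, hab, had, hac, hrel2, rfl, rfl⟩, ?_, ?_⟩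
  · have h1 := sum_view a b d c p q hab.sum_sq had.sum_sq hac.sum_sq hrel2
    rw [hS] at h1
    exact h1.symm
  · have h1 := sum_lower a b c d p' q' hrel hS
    rw [hU] at h1
    exact h1

/-- [C5] mixing.  Apply `RU.solModel_of_configP'` with `Γ = Gam2 (Bool × Bool) (ZMod (2*M)) (ZMod N) (ZMod 2)`,
`ach_Gam2`, the vectors `ins true a1 a2`, ... (`reach_glue`).  Pointwise, by cases on the block (`unfold ins; split_ifs`):
the relation; `(ins true c1 c2 ω - ins true a1 a2 ω)² = ins true (fun ω => (c1 ω - a1 ω)²) (fun ω => (c2 ω - a2 ω)²) ω`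
and the same for the products; then `sum_ins`. -/
theorem sol_mix {d : ℕ} (A B C D : E d) (p q : ℝ) (hq0 : q ≠ 0) (hq1 : q ≠ 1)
    (hrel : (1 - p) • A + p • C = (1 - q) • B + q • D) (hAC : A ≠ C)
    (hW : p * (1 - p) * ‖C - A‖ ^ 2 = q * (1 - q) * ‖D - B‖ ^ 2)
    (U1 S1 U2 S2 : ℝ) (h1 : Cfg N M p q U1 S1) (h2 : Cfg N M p q U2 S2) (hpos : 0 < U1 + U2)
    (hσ : ⟪C - A, D - B⟫ * (U1 + U2) = (S1 + S2) * ‖C - A‖ ^ 2) :
    SolModel ({A, B, C, D} : Set (E d)) := by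
  obtain ⟨a1, b1, c1, d1, hb1, hc1, hd1, hr1, hU1, hS1⟩ := h1
  obtain ⟨a2, b2, c2, d2, hb2, hc2, hd2, hr2, hU2, hS2⟩ := h2
  have esq : ∑ ω, (ins true c1 c2 ω - ins true a1 a2 ω) ^ 2 = U1 + U2 := by
    have e : ∀ ω, (ins true c1 c2 ω - ins true a1 a2 ω) ^ 2 =
        ins true (fun ω => (c1 ω - a1 ω) ^ 2) (fun ω => (c2 ω - a2 ω) ^ 2) ω := by
      intro ω
      unfold ins
      split_ifs <;> rfl
    rw [Finset.sum_congr rfl (fun ω _ => e ω), sum_ins, hU1, hU2]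
  have epr : ∑ ω, (ins true c1 c2 ω - ins true a1 a2 ω) *
      (ins true d1 d2 ω - ins true b1 b2 ω) = S1 + S2 := by
    have e : ∀ ω, (ins true c1 c2 ω - ins true a1 a2 ω) *
        (ins true d1 d2 ω - ins true b1 b2 ω) =
        ins true (fun ω => (c1 ω - a1 ω) * (d1 ω - b1 ω))
          (fun ω => (c2 ω - a2 ω) * (d2 ω - b2 ω)) ω := by
      intro ω
      unfold ins
      split_ifs <;> rfl
    rw [Finset.sum_congr rfl (fun ω _ => e ω), sum_ins, hS1, hS2]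
  refine solModel_of_configP' (Gam2 (Bool × Bool) (ZMod (2 * M)) (ZMod N) (ZMod 2))
    (ach_Gam2 (Bool × Bool) (ZMod (2 * M)) (ZMod N) (ZMod 2)) A B C D p q hq0 hq1
    (ins true a1 a2) (ins true b1 b2) (ins true c1 c2) (ins true d1 d2)
    (reach_glue a1 b1 a2 b2 hb1 hb2) (reach_glue a1 c1 a2 c2 hc1 hc2)
    (reach_glue a1 d1 a2 d2 hd1 hd2) ?_ ?_ hrel hAC ?_ hW
  · intro ω
    unfold ins
    split_ifs
    · exact hr1 _
    · exact hr2 _
  · rw [esq]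
    exact hpos
  · rw [esq, epr]
    exact hσ

omit [NeZero N] [NeZero M] in
/-- [H0] `diff_formulas`: `D - A = p u + (1-q) w`, `C - B = (1-p) u + q w`; expand the inner product
(`inner_add_left`, `inner_smul_left`, `real_inner_self_eq_norm_sq`, `real_inner_comm`) and use `hW`. -/
lemma inner_view {d : ℕ} (A B C D : E d) (p q : ℝ)
    (hrel : (1 - p) • A + p • C = (1 - q) • B + q • D)
    (hW : p * (1 - p) * ‖C - A‖ ^ 2 = q * (1 - q) * ‖D - B‖ ^ 2) :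
    ⟪D - A, C - B⟫ = 2 * p * (1 - p) * ‖C - A‖ ^ 2 +
      (p * q + (1 - p) * (1 - q)) * ⟪C - A, D - B⟫ := by
  have e1 : D - A = p • (C - A) + (1 - q) • (D - B) := by
    have h : D - A - (p • (C - A) + (1 - q) • (D - B))
        = ((1 - q) • B + q • D) - ((1 - p) • A + p • C) := by module
    rw [hrel, sub_self] at h
    exact sub_eq_zero.1 h
  have e2 : C - B = (1 - p) • (C - A) + q • (D - B) := by
    have h : C - B - ((1 - p) • (C - A) + q • (D - B))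
        = ((1 - p) • A + p • C) - ((1 - q) • B + q • D) := by module
    rw [hrel, sub_self] at h
    exact sub_eq_zero.1 h
  rw [e1, e2]
  generalize C - A = u at hW ⊢
  generalize D - B = w at hW ⊢
  simp only [inner_add_left, inner_add_right, inner_smul_left, inner_smul_right,
    real_inner_self_eq_norm_sq, conj_trivial]
  rw [real_inner_comm u w]
  linear_combination -hW

end Vale.Agent.P058.RV
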