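import Vale.Agent.P058.RV.Main

/-! # Theorem H for a rational ratio of the squared diagonals, in terms of the crossing point of the diagonals -/

namespace Vale.Agent.P058.RV

open Vale.Agent.P058 Vale.Agent.P058.Quad Vale.Agent.P058.RQ Vale.Agent.P058.RS
  Vale.Agent.P058.RT Vale.Agent.P058.RU
open scoped RealInnerProductSpace

/-- Convex cyclic quadrilateral `ABCD` (diagonals `AC`, `BD` cross in ratios `p`, `q`), no two sides parallel
(`p ≠ q`, `p + q ≠ 1`), `M |AC|² = N |BD|²`, and both pairs of opposite sides, directed the same way, make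
non-obtuse angles: `⟪D-A, C-B⟫ ≥ 0`, `⟪B-A, C-D⟫ ≥ 0`. -/
theorem sol_diag {d : ℕ} (A B C D O : E d) (r p q : ℝ) (hA : dist A O = r) (hB : dist B O = r)
    (hC : dist C O = r) (hD : dist D O = r) (hp0 : 0 < p) (hp1 : p < 1) (hq0 : 0 < q) (hq1 : q < 1)
    (hne : p ≠ q) (hpq : p + q ≠ 1)
    (hrel : (1 - p) • A + p • C = (1 - q) • B + q • D) (hAB : A ≠ B) (hBD : B ≠ D) (N M : ℕ)
    (hN : 0 < N) (hM : 0 < M) (hside : (M : ℝ) * dist A C ^ 2 = N * dist B D ^ 2)
    (h1 : 0 ≤ ⟪D - A, C - B⟫) (h2 : 0 ≤ ⟪B - A, C - D⟫) :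
    SolModel ({A, B, C, D} : Set (E d)) := by
  have he : q - p ≠ 0 := sub_ne_zero.2 (Ne.symm hne)
  have he2 : 0 < (q - p) ^ 2 := by positivity
  obtain ⟨X, hX⟩ : ∃ X : ℝ, (q - p) * X = -(1 - q) := ⟨-(1 - q) / (q - p), by field_simp⟩
  obtain ⟨Y, hY⟩ : ∃ Y : ℝ, (q - p) * Y = q := ⟨q / (q - p), by field_simp⟩
  have hrel' : (1 - X) • A + X • B = (1 - Y) • C + Y • D := by
    have h0 : (q - p) • ((1 - X) • A + X • B) = (q - p) • ((1 - Y) • C + Y • D) := by
      have a1 : (q - p) • ((1 - X) • A + X • B) = ((q - p) - (q - p) * X) • A + ((q - p) * X) • B := by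
        module
      have a2 : (q - p) • ((1 - Y) • C + Y • D) = ((q - p) - (q - p) * Y) • C + ((q - p) * Y) • D := by
        module
      rw [a1, a2, hX, hY]
      linear_combination (norm := module) hrel
    exact smul_right_injective _ he h0
  have hX0 : X ≠ 0 := by
    intro h; rw [h, mul_zero] at hX; linarith
  have hX1 : X ≠ 1 := by
    intro h; rw [h, mul_one] at hX; linarith
  have hY0 : Y ≠ 0 := by
    intro h; rw [h, mul_zero] at hY; linarith
  have hY1 : Y ≠ 1 := by
    intro h; rw [h, mul_one] at hY; linarith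
  have hXY : X + Y ≠ 1 := by
    intro h
    have : (q - p) * (X + Y) = q - p := by rw [h, mul_one]
    rw [mul_add, hX, hY] at this
    apply hpq; linarith
  have eE : (q - p) ^ 2 * (X * (1 - X)) = -((1 - q) * (1 - p)) := by
    have : (q - p) ^ 2 * (X * (1 - X)) = ((q - p) * X) * ((q - p) - (q - p) * X) := by ring
    rw [this, hX]; ring
  have eK : (q - p) ^ 2 * (X * Y + (1 - X) * (1 - Y)) = -(q * (1 - q) + p * (1 - p)) := by
    have : (q - p) ^ 2 * (X * Y + (1 - X) * (1 - Y)) = ((q - p) * X) * ((q - p) * Y) +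
        ((q - p) - (q - p) * X) * ((q - p) - (q - p) * Y) := by ring
    rw [this, hX, hY]; ring
  have hq1' : 0 < 1 - q := by linarith
  have hp1' : 0 < 1 - p := by linarith
  have hE : X * (1 - X) < 0 := by
    have : (q - p) ^ 2 * (X * (1 - X)) < 0 := by rw [eE]; have := mul_pos hq1' hp1'; linarith
    by_contra hcon
    exact absurd (mul_nonneg he2.le (not_lt.1 hcon)) (not_le.2 this)
  have hK : X * Y + (1 - X) * (1 - Y) < 0 := by
    have : (q - p) ^ 2 * (X * Y + (1 - X) * (1 - Y)) < 0 := by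
      rw [eK]; have := mul_pos hq0 hq1'; have := mul_pos hp0 hp1'; linarith
    by_contra hcon
    exact absurd (mul_nonneg he2.le (not_lt.1 hcon)) (not_le.2 this)
  have i1 : ⟪D - A, B - C⟫ = -⟪D - A, C - B⟫ := by
    rw [← neg_sub C B, inner_neg_right]
  have i2 : ⟪B - A, D - C⟫ = -⟪B - A, C - D⟫ := by
    rw [← neg_sub C D, inner_neg_right]
  have := sol_hull' A C B D O r X Y hA hC hB hD hX0 hX1 hY0 hY1 hXY hrel' hAB hBD N M hN hM hside
    (by rw [i1]; nlinarith [mul_nonneg (neg_nonneg.2 hE.le) h1])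
    (by rw [i2]; nlinarith [mul_nonneg (mul_pos_of_neg_of_neg hE hK).le h2])
  have hset : ({A, B, C, D} : Set (E d)) = {A, C, B, D} := by
    ext x; simp only [Set.mem_insert_iff, Set.mem_singleton_iff]; tauto
  rw [hset]; exact this

end Vale.Agent.P058.RV
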