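import Vale.Agent.P058.RU.Main

/-! # Gluing two designs of the staircase group (two independent blocks) -/

namespace Vale.Agent.P058.RV

open Vale.Agent.P058 Vale.Agent.P058.Quad Vale.Agent.P058.RQ Vale.Agent.P058.RS

section
variable (L0 K T S : Type) [AddCommGroup K] [AddCommGroup T] [AddCommGroup S]

/-- the generators of `RS.Gam`, but the reflection `κ ↦ -κ` acts on an arbitrary subset of the `l`. -/
def Gam2 : Set (Equiv.Perm (((L0 × K) × T) × S)) :=
  ((((∅ ∪ Set.range fun v : (L0 × K) × T → S => transl v) ∪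
    Set.range fun B : (L0 × K) × T → Bool => reflP B) ∪
    Set.range fun w : L0 × K → T => shiftP (transl w)) ∪
    Set.range fun u : L0 → K => shiftP (shiftP (transl u))) ∪
    Set.range fun B : L0 → Bool => shiftP (shiftP (reflP B))

/-- [G1] copy of `RS.ach_Gam` (Vale/Agent/P058/RS/Levels.lean): the last level is now the commuting family
`shiftP (shiftP (reflP B))` (`comm_shift`, `comm_shift`, `comm_refl`); replace `nrm_neg_transl` by
`nrm_refl_transl _`. -/
theorem ach_Gam2 [Fintype L0] [Fintype K] [Fintype T] [Fintype S] (a : ((L0 × K) × T) × S → ℝ) :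
    Ach (KK a) (GenRel (Gam2 L0 K T S)) := by
  classical
  unfold Gam2
  refine ach_genRel_step a _ _ (fun B B' ω => comm_shift _ _ (fun l => comm_shift _ _
      (fun l' => comm_refl _ _ l') l) ω) ?_ <|
    ach_genRel_step a _ _ (fun u u' ω => comm_shift _ _ (fun l => comm_shift _ _
      (fun l' => comm_transl _ _ l') l) ω) ?_ <|
    ach_genRel_step a _ _ (fun w w' ω => comm_shift _ _ (fun l => comm_transl _ _ l) ω) ?_ <|
    ach_genRel_step a _ _ (fun B B' ω => comm_refl _ _ ω) ?_ <|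
    ach_genRel_step a _ _ (fun v v' ω => comm_transl _ _ ω) ?_ (ach_genRel_empty a)
  · intro _
    exact ((((Nrm.empty _).union (nrm_shift_transl _)).union (nrm_shift_refl _)).union
      (nrm_shift_shift _ _ (nrm_shift_transl _))).union
      (nrm_shift_shift _ _ (nrm_shift_shift _ _ (nrm_refl_transl _)))
  · intro u
    exact (((Nrm.empty _).union (nrm_shift_transl _)).union (nrm_shift_refl _)).union
      (nrm_shift_shift _ _ (nrm_shift_transl _))
  · intro w
    exact ((Nrm.empty _).union (nrm_shift_transl _)).union (nrm_shift_refl _)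
  · intro B
    exact (Nrm.empty _).union (nrm_refl_transl _)
  · intro v
    exact Nrm.empty _

end

/-- [G2] induction on the second hypothesis. -/
theorem reachP_trans {Lam S : Type} {Γ : Set (Equiv.Perm (Lam × S))} {a y z : Lam × S → ℝ}
    (h1 : ReachP Γ a y) (h2 : ReachP Γ y z) : ReachP Γ a z := by
  induction h2 with
  | base => exact h1
  | sign ε _ ih => exact ReachP.sign ε ih
  | perm π hπ _ ih => exact ReachP.perm π hπ ih

variable {L0 K T S : Type}

variable {L0 K T S : Type}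

/-- forget the block -/
def strip (ω : (((Bool × L0) × K) × T) × S) : ((L0 × K) × T) × S :=
  (((ω.1.1.1.2, ω.1.1.2), ω.1.2), ω.2)

/-- `f` on the block `i`, `g` on the other block -/
def ins (i : Bool) (f g : ((L0 × K) × T) × S → ℝ) (ω : (((Bool × L0) × K) × T) × S) : ℝ :=
  if ω.1.1.1.1 = i then f (strip ω) else g (strip ω)

/-- [G3] -/
lemma ins_swap (f g : ((L0 × K) × T) × S → ℝ) : ins true f g = ins false g f := by
  funext ω
  unfold ins
  cases ω.1.1.1.1 <;> simp

/-- [G4] `Ω ≃ Bool × Ω0`; e.g. `Fintype.sum_prod_type` four times on both sides and `Fintype.sum_bool`. -/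
lemma sum_ins [Fintype L0] [Fintype K] [Fintype T] [Fintype S] (f g : ((L0 × K) × T) × S → ℝ) :
    ∑ ω, ins true f g ω = ∑ ω, f ω + ∑ ω, g ω := by
  simp only [Fintype.sum_prod_type, Fintype.sum_bool, ins, strip]
  simp

variable [AddCommGroup K] [AddCommGroup T] [AddCommGroup S]

/-- `π` acts on the block `i` (and trivially on the other block) through an element of `Gam2` -/
def Lifts (i : Bool) (π : Equiv.Perm (((L0 × K) × T) × S)) : Prop :=
  ∃ π' ∈ Gam2 (Bool × L0) K T S, ∀ (y g : ((L0 × K) × T) × S → ℝ) ω,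
    ins i y g (π' ω) = ins i (fun ω => y (π ω)) g ω

/-- [G5] `π' = transl v'`, `v' (((j, l), κ), t) = if j = i then v ((l, κ), t) else 0`. -/
lemma lifts_transl (i : Bool) (v : (L0 × K) × T → S) : Lifts i (transl v) := by
  refine ⟨transl (fun p : ((Bool × L0) × K) × T =>
    if p.1.1.1 = i then v ((p.1.1.2, p.1.2), p.2) else 0), ?_, ?_⟩
  · exact Or.inl (Or.inl (Or.inl (Or.inl (Or.inr ⟨_, rfl⟩))))
  · rintro y g ⟨⟨⟨⟨j, l⟩, κ⟩, t⟩, s⟩
    by_cases h : j = i
    · simp [ins, strip, transl, h]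
    · simp [ins, strip, transl, h]

/-- [G6] `π' = reflP B'`, `B' (((j, l), κ), t) = (j = i) && B ((l, κ), t)`. -/
lemma lifts_refl (i : Bool) (B : (L0 × K) × T → Bool) :
    Lifts i (reflP B : Equiv.Perm (((L0 × K) × T) × S)) := by
  refine ⟨reflP (fun p : ((Bool × L0) × K) × T =>
    decide (p.1.1.1 = i) && B ((p.1.1.2, p.1.2), p.2)), ?_, ?_⟩
  · exact Or.inl (Or.inl (Or.inl (Or.inr ⟨_, rfl⟩)))
  · rintro y g ⟨⟨⟨⟨j, l⟩, κ⟩, t⟩, s⟩
    by_cases h : j = i
    · simp [ins, strip, reflP, h]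
    · simp [ins, strip, reflP, h]

/-- [G7] `π' = shiftP (transl w')`, `w' ((j, l), κ) = if j = i then w (l, κ) else 0`. -/
lemma lifts_shift (i : Bool) (w : L0 × K → T) :
    Lifts i (shiftP (transl w) : Equiv.Perm (((L0 × K) × T) × S)) := by
  refine ⟨shiftP (transl (fun p : (Bool × L0) × K => if p.1.1 = i then w (p.1.2, p.2) else 0)),
    ?_, ?_⟩
  · exact Or.inl (Or.inl (Or.inr ⟨_, rfl⟩))
  · rintro y g ⟨⟨⟨⟨j, l⟩, κ⟩, t⟩, s⟩
    by_cases h : j = i
    · simp [ins, strip, shiftP, transl, h]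
    · simp [ins, strip, shiftP, transl, h]

/-- [G8] `π' = shiftP (shiftP (transl u'))`, `u' (j, l) = if j = i then u l else 0`. -/
lemma lifts_shift2 (i : Bool) (u : L0 → K) :
    Lifts i (shiftP (shiftP (transl u)) : Equiv.Perm (((L0 × K) × T) × S)) := by
  refine ⟨shiftP (shiftP (transl (fun p : Bool × L0 => if p.1 = i then u p.2 else 0))), ?_, ?_⟩
  · unfold Gam2
    exact Or.inl (Or.inr ⟨_, rfl⟩)
  · rintro y g ⟨⟨⟨⟨j, l⟩, κ⟩, t⟩, s⟩
    by_cases h : j = i
    · simp [ins, strip, shiftP, transl, h]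
    · simp [ins, strip, shiftP, transl, h]

/-- [G9] `π' = shiftP (shiftP (reflP B'))`, `B' (j, l) = (j = i)`. -/
lemma lifts_neg (i : Bool) :
    Lifts i (shiftP (shiftP negP) : Equiv.Perm (((L0 × K) × T) × S)) := by
  refine ⟨shiftP (shiftP (reflP fun jl : Bool × L0 => decide (jl.1 = i))), ?_, ?_⟩
  · exact Or.inr ⟨_, rfl⟩
  · rintro y g ⟨⟨⟨⟨j, l⟩, κ⟩, t⟩, s⟩
    by_cases h : j = i
    · simp [ins, strip, shiftP, reflP, negP, h]
    · simp [ins, strip, shiftP, reflP, negP, h]

lemma lifts_of_mem (i : Bool) (π : Equiv.Perm (((L0 × K) × T) × S)) (h : π ∈ Gam L0 K T S) :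
    Lifts i π := by
  rcases h with (((((h | ⟨v, rfl⟩) | ⟨B, rfl⟩) | ⟨w, rfl⟩) | ⟨u, rfl⟩) | ⟨_, rfl⟩)
  · exact absurd h (Set.notMem_empty _)
  · exact lifts_transl i v
  · exact lifts_refl i B
  · exact lifts_shift i w
  · exact lifts_shift2 i u
  · exact lifts_neg i

/-- [G10] induction on `h`.  `sign ε`: use `ε' ω = if ω.1.1.1.1 = i then ε (strip ω) else 1`;
`perm π`: `lifts_of_mem`, then `ReachP.perm π' _ ih` and `funext`. -/
theorem reach_ins (i : Bool) (a y g : ((L0 × K) × T) × S → ℝ) (h : ReachP (Gam L0 K T S) a y) :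
    ReachP (Gam2 (Bool × L0) K T S) (ins i a g) (ins i y g) := by
  induction h with
  | base => exact ReachP.base
  | sign ε h ih =>
    have h2 := ReachP.sign (fun ω : (((Bool × L0) × K) × T) × S =>
      if ω.1.1.1.1 = i then ε (strip ω) else 1) ih
    convert h2 using 1
    funext ω
    unfold ins
    by_cases hω : ω.1.1.1.1 = i
    · simp [hω]
    · simp [hω]
  | perm π hπ h ih =>
    obtain ⟨π', hπ', hl⟩ := lifts_of_mem i π hπ
    have h2 := ReachP.perm π' hπ' ih
    convert h2 using 1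
    funext ω
    exact (hl _ g ω).symm

theorem reach_glue (a1 y1 a2 y2 : ((L0 × K) × T) × S → ℝ) (h1 : ReachP (Gam L0 K T S) a1 y1)
    (h2 : ReachP (Gam L0 K T S) a2 y2) :
    ReachP (Gam2 (Bool × L0) K T S) (ins true a1 a2) (ins true y1 y2) := by
  refine reachP_trans (reach_ins true a1 y1 a2 h1) ?_
  rw [ins_swap y1 a2, ins_swap y1 y2]
  exact reach_ins false a2 y2 y1 h2

end Vale.Agent.P058.RV
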