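import Vale.Agent.P058.RV.Cfg

/-! # Ramsey quadrilaterals: the region between the two views -/

namespace Vale.Agent.P058.RV

open Vale.Agent.P058 Vale.Agent.P058.Quad Vale.Agent.P058.RQ Vale.Agent.P058.RS
  Vale.Agent.P058.RT Vale.Agent.P058.RU
open scoped RealInnerProductSpace

/-- the perpendicular configuration for `(p, q)` with `p q M = (1-q) (1-p) N` -/
theorem cfg_perp (N M : ℕ) [NeZero N] [NeZero M] (p q : ℝ)
    (hG0 : (N : ℝ) * (1 - q) + M * q ≠ 0) (hratio : p * q * M = (1 - q) * (1 - p) * N) :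
    Cfg N M p q (4 * ((N : ℝ) * (1 - q) + M * q) ^ 2) 0 := by
  have e1 : 1 - (1 - q) = q := by ring
  have h := cfg_swap N M (cfg_core N M p (1 - q) (by rw [e1]; exact hG0)
    (by rw [e1]; linear_combination hratio))
  rw [e1, neg_zero] at h
  exact h

/-- **Theorem H.**  Cyclic quadrilateral `ABCD` (diagonals `AC`, `BD` cross, `AD`, `BC` not parallel) with
`M |AB|² = N |CD|²` and `⟪C-A, D-B⟫ ≤ 0 ≤ ⟪D-A, C-B⟫`. -/
theorem sol_hull {d : ℕ} (A B C D O : E d) (r p q : ℝ) (hA : dist A O = r) (hB : dist B O = r)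
    (hC : dist C O = r) (hD : dist D O = r) (hp0 : 0 < p) (hp1 : p < 1) (hq0 : 0 < q) (hq1 : q < 1)
    (hpq : p + q ≠ 1)
    (hrel : (1 - p) • A + p • C = (1 - q) • B + q • D) (hAC : A ≠ C) (hCD : C ≠ D) (N M : ℕ)
    (hN : 0 < N) (hM : 0 < M) (hside : (M : ℝ) * dist A B ^ 2 = N * dist C D ^ 2)
    (hS : ⟪C - A, D - B⟫ ≤ 0) (hS' : 0 ≤ ⟪D - A, C - B⟫) :
    SolModel ({A, B, C, D} : Set (E d)) := by
  have : NeZero N := ⟨hN.ne'⟩
  have : NeZero M := ⟨hM.ne'⟩
  have hW := power_of_point' A B C D O r p q hA hB hC hD hrel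
  have hsr := side_ratio A B C D p q hrel hW
  have hNr : (0 : ℝ) < N := by exact_mod_cast hN
  have hMr : (0 : ℝ) < M := by exact_mod_cast hM
  have hcd : 0 < dist C D ^ 2 := by
    have : 0 < dist C D := dist_pos.2 hCD
    positivity
  have hratio : p * q * M = (1 - q) * (1 - p) * N := by
    have : ((1 - p) * (1 - q) * N - p * q * M) * dist C D ^ 2 = 0 := by
      linear_combination (M : ℝ) * hsr - (1 - p) * (1 - q) * hside
    rcases mul_eq_zero.1 this with h | h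
    · linarith
    · exact absurd h hcd.ne'
  have hq1' : 0 < 1 - q := by linarith
  have hp1' : 0 < 1 - p := by linarith
  have he0 : 1 - p - q ≠ 0 := by
    intro h; apply hpq; linarith
  -- first view
  have hG1 : 0 < (N : ℝ) * (1 - q) + M * q := by positivity
  have c1 := cfg_perp N M p q hG1.ne' hratio
  -- second view
  obtain ⟨X, hX⟩ : ∃ X : ℝ, (1 - p - q) * X = -q := ⟨-q / (1 - p - q), by field_simp⟩
  obtain ⟨Y, hY⟩ : ∃ Y : ℝ, (1 - p - q) * Y = -p := ⟨-p / (1 - p - q), by field_simp⟩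
  have hX0 : X ≠ 0 := by
    intro h
    rw [h, mul_zero] at hX
    linarith
  have heG : (1 - p - q) * ((N : ℝ) * (1 - Y) + M * Y) = N * (1 - q) - M * p := by
    linear_combination ((M : ℝ) - N) * hY
  have hne : (N : ℝ) * (1 - q) - M * p ≠ 0 := by
    intro h
    have h2 : (q - (1 - p)) * ((N : ℝ) * (1 - q)) = 0 := by
      linear_combination hratio + q * h
    rcases mul_eq_zero.1 h2 with h3 | h3
    · apply hpq; linarith
    · exact absurd h3 (by positivity)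
  have hG2 : (N : ℝ) * (1 - Y) + M * Y ≠ 0 := by
    intro h
    rw [h, mul_zero] at heG
    exact hne heG.symm
  have hratio2 : X * Y * M = (1 - Y) * (1 - X) * N := by
    apply mul_left_cancel₀ (pow_ne_zero 2 he0)
    have a1 : (1 - p - q) ^ 2 * (X * Y * M) = ((1 - p - q) * X) * ((1 - p - q) * Y) * M := by ring
    have a2 : (1 - p - q) ^ 2 * ((1 - Y) * (1 - X) * N) =
        ((1 - p - q) - (1 - p - q) * Y) * ((1 - p - q) - (1 - p - q) * X) * N := by ring
    rw [a1, a2, hX, hY]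
    linear_combination hratio
  have c2s := cfg_perp N M X Y hG2 hratio2
  obtain ⟨U2, S2, c2, hid, hlow⟩ := cfg_view N M p q X Y (1 - p - q) _ rfl hX hY c2s
  have hU2 : 0 < U2 := by
    refine lt_of_lt_of_le ?_ hlow
    positivity
  have hview := inner_view A B C D p q hrel hW
  have hUpos : 0 < ‖C - A‖ ^ 2 := by
    have : 0 < ‖C - A‖ := norm_pos_iff.2 (sub_ne_zero.2 (Ne.symm hAC))
    positivity
  obtain ⟨U1, hU1⟩ : ∃ U1 : ℝ, U1 = 4 * ((N : ℝ) * (1 - q) + M * q) ^ 2 := ⟨_, rfl⟩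
  rw [← hU1] at c1
  have hU1pos : 0 < U1 := by rw [hU1]; positivity
  obtain ⟨k, hk⟩ : ∃ k : ℝ, k = p * q + (1 - p) * (1 - q) := ⟨_, rfl⟩
  rw [← hk] at hid hview
  have hkpos : 0 < k := by rw [hk]; positivity
  have m1 := cfg_smul N M c1 (U2 * ⟪D - A, C - B⟫) (mul_nonneg hU2.le hS')
  have m2 := cfg_smul N M c2 (k * (-⟪C - A, D - B⟫) * U1)
    (mul_nonneg (mul_nonneg hkpos.le (by linarith)) hU1pos.le)
  refine sol_mix N M A B C D p q hq0.ne' hq1.ne hrel hAC hW _ _ _ _ m1 m2 ?_ ?_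
  · have : U2 * ⟪D - A, C - B⟫ * U1 + k * (-⟪C - A, D - B⟫) * U1 * U2 =
        U1 * U2 * (2 * p * (1 - p) * ‖C - A‖ ^ 2) := by
      rw [hview]; ring
    rw [this]
    positivity
  · linear_combination (⟪C - A, D - B⟫ * U1 * U2) * hview +
      (⟪C - A, D - B⟫ * U1 * ‖C - A‖ ^ 2) * hid

/-- **Theorem H'.**  Four points of a sphere, the lines `AC`, `BD` meet (`p`, `q` real, `≠ 0, 1`), `AD`, `BC` not parallel,
`M |AB|² = N |CD|²`, and `p(1-p) ⟪D-A, C-B⟫ ≥ 0 ≥ p(1-p) (pq + (1-p)(1-q)) ⟪C-A, D-B⟫`. -/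
theorem sol_hull' {d : ℕ} (A B C D O : E d) (r p q : ℝ) (hA : dist A O = r) (hB : dist B O = r)
    (hC : dist C O = r) (hD : dist D O = r) (hp0 : p ≠ 0) (hp1 : p ≠ 1) (hq0 : q ≠ 0) (hq1 : q ≠ 1)
    (hpq : p + q ≠ 1)
    (hrel : (1 - p) • A + p • C = (1 - q) • B + q • D) (hAC : A ≠ C) (hCD : C ≠ D) (N M : ℕ)
    (hN : 0 < N) (hM : 0 < M) (hside : (M : ℝ) * dist A B ^ 2 = N * dist C D ^ 2)
    (hS' : 0 ≤ p * (1 - p) * ⟪D - A, C - B⟫)
    (hS : p * (1 - p) * (p * q + (1 - p) * (1 - q)) * ⟪C - A, D - B⟫ ≤ 0) :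
    SolModel ({A, B, C, D} : Set (E d)) := by
  have : NeZero N := ⟨hN.ne'⟩
  have : NeZero M := ⟨hM.ne'⟩
  have hW := power_of_point' A B C D O r p q hA hB hC hD hrel
  have hsr := side_ratio A B C D p q hrel hW
  have hNr : (0 : ℝ) < N := by exact_mod_cast hN
  have hMr : (0 : ℝ) < M := by exact_mod_cast hM
  have hcd : 0 < dist C D ^ 2 := by
    have : 0 < dist C D := dist_pos.2 hCD
    positivity
  have hratio : p * q * M = (1 - q) * (1 - p) * N := by
    have : ((1 - p) * (1 - q) * N - p * q * M) * dist C D ^ 2 = 0 := by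
      linear_combination (M : ℝ) * hsr - (1 - p) * (1 - q) * hside
    rcases mul_eq_zero.1 this with h | h
    · linarith
    · exact absurd h hcd.ne'
  have hq1' : 1 - q ≠ 0 := sub_ne_zero.2 (Ne.symm hq1)
  have hp1' : 1 - p ≠ 0 := sub_ne_zero.2 (Ne.symm hp1)
  have hpp : p * (1 - p) ≠ 0 := mul_ne_zero hp0 hp1'
  have hNq : (N : ℝ) * (1 - q) ≠ 0 := mul_ne_zero hNr.ne' hq1'
  have he0 : 1 - p - q ≠ 0 := by
    intro h; apply hpq; linarith
  -- first view
  have hG1 : (N : ℝ) * (1 - q) + M * q ≠ 0 := by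
    intro h
    have : ((N : ℝ) * (1 - q) + M * q) * p = N * (1 - q) := by linear_combination hratio
    rw [h, zero_mul] at this
    exact hNq this.symm
  have c1 := cfg_perp N M p q hG1 hratio
  -- second view
  obtain ⟨X, hX⟩ : ∃ X : ℝ, (1 - p - q) * X = -q := ⟨-q / (1 - p - q), by field_simp⟩
  obtain ⟨Y, hY⟩ : ∃ Y : ℝ, (1 - p - q) * Y = -p := ⟨-p / (1 - p - q), by field_simp⟩
  have hX0 : X ≠ 0 := by
    intro h
    rw [h, mul_zero] at hX
    apply hq0; linarith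
  have heG : (1 - p - q) * ((N : ℝ) * (1 - Y) + M * Y) = N * (1 - q) - M * p := by
    linear_combination ((M : ℝ) - N) * hY
  have hne : (N : ℝ) * (1 - q) - M * p ≠ 0 := by
    intro h
    have h2 : (q - (1 - p)) * ((N : ℝ) * (1 - q)) = 0 := by
      linear_combination hratio + q * h
    rcases mul_eq_zero.1 h2 with h3 | h3
    · apply hpq; linarith
    · exact absurd h3 hNq
  have hG2 : (N : ℝ) * (1 - Y) + M * Y ≠ 0 := by
    intro h
    rw [h, mul_zero] at heG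
    exact hne heG.symm
  have hratio2 : X * Y * M = (1 - Y) * (1 - X) * N := by
    apply mul_left_cancel₀ (pow_ne_zero 2 he0)
    have a1 : (1 - p - q) ^ 2 * (X * Y * M) = ((1 - p - q) * X) * ((1 - p - q) * Y) * M := by ring
    have a2 : (1 - p - q) ^ 2 * ((1 - Y) * (1 - X) * N) =
        ((1 - p - q) - (1 - p - q) * Y) * ((1 - p - q) - (1 - p - q) * X) * N := by ring
    rw [a1, a2, hX, hY]
    linear_combination hratio
  have c2s := cfg_perp N M X Y hG2 hratio2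
  obtain ⟨U2, S2, c2, hid, hlow⟩ := cfg_view N M p q X Y (1 - p - q) _ rfl hX hY c2s
  have hU2 : 0 < U2 := by
    refine lt_of_lt_of_le ?_ hlow
    positivity
  have hview := inner_view A B C D p q hrel hW
  have hUpos : 0 < ‖C - A‖ ^ 2 := by
    have : 0 < ‖C - A‖ := norm_pos_iff.2 (sub_ne_zero.2 (Ne.symm hAC))
    positivity
  obtain ⟨U1, hU1⟩ : ∃ U1 : ℝ, U1 = 4 * ((N : ℝ) * (1 - q) + M * q) ^ 2 := ⟨_, rfl⟩
  rw [← hU1] at c1
  have hU1pos : 0 < U1 := by rw [hU1]; positivity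
  obtain ⟨k, hk⟩ : ∃ k : ℝ, k = p * q + (1 - p) * (1 - q) := ⟨_, rfl⟩
  rw [← hk] at hid hview hS
  have m1 := cfg_smul N M c1 (U2 * (p * (1 - p) * ⟪D - A, C - B⟫)) (mul_nonneg hU2.le hS')
  have m2 := cfg_smul N M c2 (-(p * (1 - p) * k * ⟪C - A, D - B⟫) * U1)
    (mul_nonneg (by linarith) hU1pos.le)
  refine sol_mix N M A B C D p q hq0 hq1 hrel hAC hW _ _ _ _ m1 m2 ?_ ?_
  · have : U2 * (p * (1 - p) * ⟪D - A, C - B⟫) * U1 +
        -(p * (1 - p) * k * ⟪C - A, D - B⟫) * U1 * U2 =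
        U1 * U2 * (2 * (p * (1 - p)) ^ 2 * ‖C - A‖ ^ 2) := by
      rw [hview]; ring
    rw [this]
    positivity
  · linear_combination (p * (1 - p) * ⟪C - A, D - B⟫ * U1 * U2) * hview +
      (p * (1 - p) * ⟪C - A, D - B⟫ * U1 * ‖C - A‖ ^ 2) * hid

end Vale.Agent.P058.RV
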